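import Vale.Agent.P143.Main

/-!
P143: the free uniform spanning forest is a factor of i.i.d. on every Cayley graph, and a graph
factor of i.i.d. on every unimodular random graph.
-/

namespace Vale.Agent.Results.P143.FUSFFactorIID

open MeasureTheory Vale.P143

theorem result :
    (∀ (Γ : Type) [Group Γ] (S : Finset Γ), Subgroup.closure (S : Set Γ) = ⊤ →
      ∃ Φ : (Γ → ℝ) → Sym2 Γ → Bool, Measurable Φ ∧
        (∀ (γ : Γ) (U : Γ → ℝ) (e : Sym2 Γ),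
          Φ (fun v => U (γ⁻¹ * v)) (e.map fun v => γ * v) = Φ U e) ∧
        IsFUSF (cayleyGraph (S : Set Γ)) ((labelLaw Γ).map Φ)) ∧
    (∃ Φ : SimpleGraph ℕ × (ℕ → ℝ) → Sym2 ℕ → Bool, Measurable Φ ∧
      (∀ (σ : Equiv.Perm ℕ) (G : SimpleGraph ℕ) (U : ℕ → ℝ) (e : Sym2 ℕ),
        Φ (G.comap σ, U ∘ σ) e = Φ (G, U) (e.map σ)) ∧
      ∀ μ : Measure (SimpleGraph ℕ), IsProbabilityMeasure μ → MassTransport μ 0 →
        (∀ᵐ G ∂μ, G.Connected ∧ ∀ v, (G.neighborSet v).Finite) →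
        ∀ᵐ G ∂μ, IsFUSF G ((labelLaw ℕ).map fun U => Φ (G, U))) := by
  refine ⟨fun Γ _ S hS => cayley_factor Γ (S : Set Γ) S.finite_toSet hS, ?_⟩
  obtain ⟨Φ, hm, hequiv, hlaw⟩ := exists_factor (V := ℕ)
  exact ⟨Φ, hm, hequiv, fun μ => hlaw μ 0⟩

end Vale.Agent.Results.P143.FUSFFactorIID
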